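import Vale.Agent.P237.AllN.Bridge
import Vale.Agent.P237.Gen.Approx

/-!
For a body, `pA` is subadditive (it is a uniform limit of supports of zonotopes), so the slice
bound applies to `pA (piSet K) e0` with no further hypothesis.
-/

open MeasureTheory Set Pointwise

namespace Vale.Agent.P237.AllN

noncomputable section

/-- The two definitions of `pA` agree. -/
theorem pA_eq_gen {n : ℕ} (K : Set (Fin (n + 1) → ℝ)) (u : Fin (n + 1) → ℝ) :
    pA K u = Gen.pA K u := rfl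

theorem pA_add_le {n : ℕ} {K : Set (Fin (n + 1) → ℝ)} (hK : Gen.Body K)
    (u v : Fin (n + 1) → ℝ) : pA K (u + v) ≤ pA K u + pA K v := by
  refine le_of_forall_pos_le_add fun ε hε => ?_
  obtain ⟨J, _, s, hs⟩ := Gen.approx_one hK
    (e := ε / (‖u + v‖ + ‖u‖ + ‖v‖ + 1)) (by positivity)
  have h1 := abs_le.1 (hs u)
  have h2 := abs_le.1 (hs v)
  have h3 := abs_le.1 (hs (u + v))
  have h4 : Gen.supp s (u + v) ≤ Gen.supp s u + Gen.supp s v := by
    unfold Gen.supp
    rw [← Finset.sum_add_distrib]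
    exact Finset.sum_le_sum fun i _ => by rw [add_dotProduct]; exact abs_add_le _ _
  have h5 : ε / (‖u + v‖ + ‖u‖ + ‖v‖ + 1) * (‖u + v‖ + ‖u‖ + ‖v‖ + 1) = ε :=
    div_mul_cancel₀ _ (by positivity)
  have h6 : 0 ≤ ε / (‖u + v‖ + ‖u‖ + ‖v‖ + 1) := by positivity
  simp only [pA_eq_gen]
  linarith

/-- The slice bound for a symmetric body. -/
theorem body_slice_le_pA_piSet {m : ℕ} (hm : 2 ≤ m) {c : ℝ} (hc0 : 0 ≤ c)
    (hP : ∀ S : Set (Fin m → ℝ), IsCompact S → Convex ℝ S →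
      c * volume.real S ^ (m - 1) ≤ volume.real (piSet S))
    {K : Set (Fin (m + 1) → ℝ)} (hK : Gen.Body K) (hKs : -K = K) :
    c * (∫ t, slA K t ^ (((m : ℝ) - 1) / m)) ^ m ≤ pA (piSet K) (Pi.single 0 1) :=
  slice_le_pA_piSet hm hc0 hP hK.2.1 hK.1 hKs (pA_add_le hK)

end

end Vale.Agent.P237.AllN
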