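import Vale.Agent.P237.AllN.Slice

/-!
The shadow of `piSet K` on `e0⊥` is cut out by the inequalities with `u ⊥ e0`, as soon as `pA K`
is subadditive (one step of Hahn-Banach).  Hence the slice bound is a bound for `pA (piSet K) e0`.
-/

open MeasureTheory Set Pointwise

namespace Vale.Agent.P237.AllN

noncomputable section

theorem pA_zero {n : ℕ} (K : Set (Fin n → ℝ)) : pA K 0 = 0 := by simp [pA, sg_zero]

theorem pA_smul {n : ℕ} {K : Set (Fin (n + 1) → ℝ)} (hK : IsCompact K) (hc : Convex ℝ K)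
    {r : ℝ} (hr : 0 ≤ r) (u : Fin (n + 1) → ℝ) : pA K (r • u) = r * pA K u := by
  rcases hr.eq_or_lt with rfl | hr
  · simp [pA_zero]
  · rw [pA, real_add_smul_sg hK hc u hr]
    ring

theorem tail_piSet {n : ℕ} {K : Set (Fin (n + 1) → ℝ)} (hK : IsCompact K) (hc : Convex ℝ K)
    (hadd : ∀ u v, pA K (u + v) ≤ pA K u + pA K v) :
    Fin.tail '' piSet K = {y : Fin n → ℝ | ∀ w, w ⬝ᵥ y ≤ pA K (Fin.cons 0 w)} := by
  have hdot : ∀ (a : ℝ) (w : Fin n → ℝ) (x : Fin (n + 1) → ℝ),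
      (Fin.cons a w : Fin (n + 1) → ℝ) ⬝ᵥ x = a * x 0 + w ⬝ᵥ Fin.tail x := fun a w x => by
    simp [dotProduct, Fin.sum_univ_succ, Fin.tail]
  refine Subset.antisymm ?_ ?_
  · rintro _ ⟨x, hx, rfl⟩ w
    simpa [hdot] using hx (Fin.cons 0 w)
  intro y hy
  set N := pA K with hN
  set A : Set ℝ := range fun w : Fin n → ℝ => w ⬝ᵥ y - N (Fin.cons (-1) w) with hA
  have hle : ∀ w w' : Fin n → ℝ,
      w ⬝ᵥ y - N (Fin.cons (-1) w) ≤ N (Fin.cons 1 w') - w' ⬝ᵥ y := by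
    intro w w'
    have h1 := hy (w + w')
    have h2 := hadd (Fin.cons (-1) w) (Fin.cons 1 w')
    have e : (Fin.cons (-1) w : Fin (n + 1) → ℝ) + Fin.cons 1 w' = Fin.cons 0 (w + w') := by
      funext i
      refine Fin.cases ?_ (fun j => ?_) i <;> simp
    rw [e] at h2
    rw [add_dotProduct] at h1
    linarith
  have hb : BddAbove A := ⟨N (Fin.cons 1 0) - (0 : Fin n → ℝ) ⬝ᵥ y, by
    rintro _ ⟨w, rfl⟩
    exact hle w 0⟩
  have hlo : ∀ w, w ⬝ᵥ y - N (Fin.cons (-1) w) ≤ sSup A := fun w => le_csSup hb ⟨w, rfl⟩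
  have hhi : ∀ w, sSup A ≤ N (Fin.cons 1 w) - w ⬝ᵥ y := fun w => csSup_le (range_nonempty _) (by
    rintro _ ⟨v, rfl⟩
    exact hle v w)
  refine ⟨Fin.cons (sSup A) y, fun u => ?_, Fin.tail_cons _ _⟩
  have hsc : ∀ (r a : ℝ) (w : Fin n → ℝ),
      r • (Fin.cons a w : Fin (n + 1) → ℝ) = Fin.cons (r * a) (r • w) := fun r a w => by
    funext i
    refine Fin.cases ?_ (fun j => ?_) i <;> simp
  obtain ⟨a, w, rfl⟩ : ∃ a w, u = Fin.cons a w := ⟨u 0, Fin.tail u, (Fin.cons_self_tail u).symm⟩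
  rw [hdot]
  simp only [Fin.cons_zero, Fin.tail_cons]
  rcases lt_trichotomy a 0 with ha | rfl | ha
  · have h := mul_le_mul_of_nonneg_left (hlo ((-a)⁻¹ • w)) (le_of_lt (neg_pos.2 ha))
    rw [smul_dotProduct, mul_sub, ← pA_smul hK hc (neg_pos.2 ha).le, hsc, smul_eq_mul,
      mul_neg_one, neg_neg, smul_inv_smul₀ (neg_pos.2 ha).ne',
      mul_inv_cancel_left₀ (neg_pos.2 ha).ne', ← hN] at h
    linarith
  · simpa using hy w
  · have h := mul_le_mul_of_nonneg_left (hhi (a⁻¹ • w)) ha.le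
    rw [smul_dotProduct, mul_sub, ← pA_smul hK hc ha.le, hsc, smul_eq_mul, mul_one,
      smul_inv_smul₀ ha.ne', mul_inv_cancel_left₀ ha.ne', ← hN] at h
    linarith

/-- For a compact convex body, `pA · e0` is the volume of the shadow. -/
theorem pA_single {n : ℕ} {K : Set (Fin (n + 1) → ℝ)} (hK : IsCompact K) (hc : Convex ℝ K) :
    pA K (Pi.single 0 1) = volume.real (Fin.tail '' K) := by
  have hL : IsCompact (Fin.tail '' K) :=
    hK.image (continuous_pi fun i : Fin n => continuous_apply (Fin.succ i))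
  rw [pA, Measure.real, volume_add_sg hK hc, ENNReal.toReal_add hK.measure_lt_top.ne
    (ENNReal.mul_ne_top (by norm_num) hL.measure_lt_top.ne), ENNReal.toReal_mul]
  simp [Measure.real]

/-- The slice bound for the projection of the projection body. -/
theorem slice_le_pA_piSet {m : ℕ} (hm : 2 ≤ m) {c : ℝ} (hc0 : 0 ≤ c)
    (hP : ∀ S : Set (Fin m → ℝ), IsCompact S → Convex ℝ S →
      c * volume.real S ^ (m - 1) ≤ volume.real (piSet S))
    {K : Set (Fin (m + 1) → ℝ)} (hK : IsCompact K) (hKc : Convex ℝ K) (hKs : -K = K)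
    (hadd : ∀ u v, pA K (u + v) ≤ pA K u + pA K v) :
    c * (∫ t, slA K t ^ (((m : ℝ) - 1) / m)) ^ m ≤ pA (piSet K) (Pi.single 0 1) := by
  rw [pA_single (K := piSet K) (isCompact_sub (pA K)) (convex_sub (pA K)),
    tail_piSet hK hKc hadd]
  exact slice_piSet hm hc0 hP hK hKc hKs

end

end Vale.Agent.P237.AllN
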