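import Mathlib

/-!
Fibres and slices of sets in `Fin (n + 1) → ℝ`, and the volume added by a segment.
-/

open MeasureTheory Set Pointwise

namespace Vale.Agent.P237.AllN

noncomputable section

/-- The segment `[-u, u]` in any dimension. -/
def sg {n : ℕ} (u : Fin n → ℝ) : Set (Fin n → ℝ) := (fun t : ℝ => t • u) '' Icc (-1) 1

/-- The length of `u` times the volume of the projection of `K` along `u`. -/
def pA {n : ℕ} (K : Set (Fin n → ℝ)) (u : Fin n → ℝ) : ℝ :=
  (volume.real (K + sg u) - volume.real K) / 2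

/-- The projection body of `K`, through its support inequalities. -/
def piSet {n : ℕ} (K : Set (Fin n → ℝ)) : Set (Fin n → ℝ) := {x | ∀ u, u ⬝ᵥ x ≤ pA K u}

/-- The volume of the slice at first coordinate `t`. -/
def slA {n : ℕ} (K : Set (Fin (n + 1) → ℝ)) (t : ℝ) : ℝ :=
  volume.real {y : Fin n → ℝ | (Fin.cons t y : Fin (n + 1) → ℝ) ∈ K}

theorem isCompact_sg {n : ℕ} (u : Fin n → ℝ) : IsCompact (sg u) :=
  isCompact_Icc.image (by fun_prop)

/-- The slice of a set at first coordinate `t`. -/
def sl {n : ℕ} (K : Set (Fin (n + 1) → ℝ)) (t : ℝ) : Set (Fin n → ℝ) :=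
  {y | (Fin.cons t y : Fin (n + 1) → ℝ) ∈ K}

/-- The line fibre of a set over `y`. -/
def fib {n : ℕ} (K : Set (Fin (n + 1) → ℝ)) (y : Fin n → ℝ) : Set ℝ :=
  {t | (Fin.cons t y : Fin (n + 1) → ℝ) ∈ K}

theorem volume_eq_lintegral {n : ℕ} {K : Set (Fin (n + 1) → ℝ)} (hK : MeasurableSet K) :
    (volume K = ∫⁻ t, volume (sl K t)) ∧ (volume K = ∫⁻ y, volume (fib K y)) ∧
      Measurable fun t => volume (sl K t) := by
  set e := MeasurableEquiv.piFinSuccAbove (fun _ : Fin (n + 1) => ℝ) 0 with he
  have hmp : MeasurePreserving e :=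
    volume_preserving_piFinSuccAbove (fun _ : Fin (n + 1) => ℝ) 0
  have hpre : volume K = volume (e.symm ⁻¹' K) :=
    ((hmp.symm e).measure_preimage hK.nullMeasurableSet).symm
  have hm : MeasurableSet (e.symm ⁻¹' K) := e.symm.measurable hK
  have hsl : ∀ t, sl K t = Prod.mk t ⁻¹' (e.symm ⁻¹' K) := by
    intro t
    ext y
    simp [sl, he, MeasurableEquiv.piFinSuccAbove_symm_apply, Fin.consEquiv]
  have hfib : ∀ y, fib K y = (fun t => (t, y)) ⁻¹' (e.symm ⁻¹' K) := by
    intro y
    ext t
    simp [fib, he, MeasurableEquiv.piFinSuccAbove_symm_apply, Fin.consEquiv]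
  simp only [hsl, hfib]
  rw [hpre, Measure.volume_eq_prod]
  exact ⟨Measure.prod_apply hm, Measure.prod_apply_symm hm, measurable_measure_prodMk_left hm⟩

theorem sg_single {n : ℕ} (s : ℝ) (z : Fin (n + 1) → ℝ) :
    z + s • (Pi.single 0 1 : Fin (n + 1) → ℝ) = Fin.cons (z 0 + s) (Fin.tail z) := by
  funext i
  refine Fin.cases ?_ (fun j => ?_) i
  · simp
  · simp [Fin.tail]

/-- Adding the first unit segment adds twice the volume of the projection. -/
theorem volume_add_sg {n : ℕ} {K : Set (Fin (n + 1) → ℝ)} (hK : IsCompact K) (hc : Convex ℝ K) :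
    volume (K + sg (Pi.single 0 1)) = volume K + 2 * volume (Fin.tail '' K) := by
  classical
  have hP : MeasurableSet (Fin.tail '' K) :=
    (hK.image (continuous_pi fun i : Fin n => continuous_apply (Fin.succ i))).measurableSet
  rw [(volume_eq_lintegral (hK.add (isCompact_sg _)).measurableSet).2.1,
    (volume_eq_lintegral hK.measurableSet).2.1, ← lintegral_indicator_one hP,
    ← lintegral_const_mul' _ _ (by norm_num),
    ← lintegral_add_right _ ((measurable_one.indicator hP).const_mul _)]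
  refine lintegral_congr fun y => ?_
  have hfib : fib (K + sg (Pi.single 0 1)) y = fib K y + Icc (-1) 1 := by
    ext t
    simp only [fib, sg, Set.mem_ofPred_eq, Set.mem_add, Set.mem_image]
    constructor
    · rintro ⟨z, hz, _, ⟨s, hs, rfl⟩, h⟩
      rw [sg_single] at h
      have h0 := congrFun h 0
      have h1 : Fin.tail z = y := by simpa using congrArg Fin.tail h
      simp only [Fin.cons_zero] at h0
      exact ⟨z 0, by rwa [← h1, Fin.cons_self_tail], s, hs, h0⟩
    · rintro ⟨r, hr, s, hs, rfl⟩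
      exact ⟨_, hr, _, ⟨s, hs, rfl⟩, by rw [sg_single]; simp⟩
  rw [hfib]
  rcases (fib K y).eq_empty_or_nonempty with h0 | hne
  · have : y ∉ Fin.tail '' K := by
      rintro ⟨z, hz, rfl⟩
      have : z 0 ∈ fib K (Fin.tail z) := by simp [fib, hz]
      simp [h0] at this
    simp [h0, indicator_of_notMem this]
  · have hy : y ∈ Fin.tail '' K := ⟨_, hne.some_mem, Fin.tail_cons _ _⟩
    have hcont : Continuous fun t : ℝ => (Fin.cons t y : Fin (n + 1) → ℝ) :=
      continuous_pi fun i => Fin.cases continuous_id (fun j => continuous_const) i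
    have hcl : IsClosed (fib K y) := hK.isClosed.preimage hcont
    obtain ⟨M, hM⟩ := (hK.image (continuous_apply (0 : Fin (n + 1)))).isBounded.subset_closedBall 0
    have hcp : IsCompact (fib K y) :=
      Metric.isCompact_of_isClosed_isBounded hcl
        (Metric.isBounded_closedBall.subset fun t ht => hM ⟨_, ht, by simp⟩)
    have hcv : Convex ℝ (fib K y) := by
      intro a ha b hb p r hp hr hpr
      have h := hc ha hb hp hr hpr
      have e : p • (Fin.cons a y : Fin (n + 1) → ℝ) + r • Fin.cons b y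
          = Fin.cons (p • a + r • b) y := by
        funext i
        refine Fin.cases ?_ (fun j => ?_) i
        · simp
        · simp [← add_mul, hpr]
      simpa [fib, e] using h
    rw [eq_Icc_of_connected_compact (hcv.isConnected hne) hcp]
    have hle : sInf (fib K y) ≤ sSup (fib K y) :=
      csInf_le_csSup hne hcp.bddBelow hcp.bddAbove
    rw [Icc_add_Icc hle (by norm_num), Real.volume_Icc, Real.volume_Icc, indicator_of_mem hy,
      Pi.one_apply, mul_one, show (2 : ENNReal) = ENNReal.ofReal 2 by simp,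
      ← ENNReal.ofReal_add (sub_nonneg.2 hle) (by norm_num)]
    congr 1
    ring

theorem exists_cell {D : ℝ} (n : ℕ) {x : ℝ} (h0 : 0 ≤ x) (h1 : x ≤ n * D) :
    n = 0 ∨ ∃ i < n, (i : ℝ) * D ≤ x ∧ x ≤ ((i + 1 : ℕ) : ℝ) * D := by
  induction n with
  | zero => exact Or.inl rfl
  | succ n ih =>
    right
    rcases le_or_gt ((n : ℝ) * D) x with h | h
    · exact ⟨n, n.lt_succ_self, h, h1⟩
    · rcases ih h.le with rfl | ⟨i, hi, hi'⟩
      · simp at h
        linarith
      · exact ⟨i, by omega, hi'⟩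

/-- The two intervals of absolute values in `[a, b]` have total length at most `2 (b - a)`. -/
theorem volume_abs_le {a b : ℝ} (hab : a ≤ b) :
    volume {t : ℝ | |t| ∈ Icc a b} ≤ ENNReal.ofReal (2 * (b - a)) := by
  calc volume {t : ℝ | |t| ∈ Icc a b} ≤ volume (Icc a b ∪ Icc (-b) (-a)) := by
        refine measure_mono fun t ht => ?_
        rcases abs_cases t with ⟨he, -⟩ | ⟨he, -⟩ <;> simp only [Set.mem_ofPred_eq, he] at ht
        · exact Or.inl ht
        · exact Or.inr ⟨by linarith [ht.2], by linarith [ht.1]⟩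
    _ ≤ volume (Icc a b) + volume (Icc (-b) (-a)) := measure_union_le _ _
    _ = _ := by
        rw [Real.volume_Icc, Real.volume_Icc, ← ENNReal.ofReal_add (by linarith) (by linarith)]
        congr 1
        ring

/-- The two intervals of absolute values in `(a, b]` have total length `2 (b - a)`. -/
theorem volume_abs_eq {a b : ℝ} (ha : 0 ≤ a) (hab : a ≤ b) :
    volume {t : ℝ | |t| ∈ Ioc a b} = ENNReal.ofReal (2 * (b - a)) := by
  have e : {t : ℝ | |t| ∈ Ioc a b} = Ioc a b ∪ Ico (-b) (-a) := by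
    ext t
    simp only [Set.mem_ofPred_eq, mem_union, mem_Ioc, mem_Ico]
    rcases abs_cases t with ⟨he, _⟩ | ⟨he, _⟩ <;> rw [he]
    · exact ⟨Or.inl, fun h => h.elim id fun h' => by constructor <;> linarith [h'.1, h'.2]⟩
    · exact ⟨fun h => Or.inr ⟨by linarith [h.2], by linarith [h.1]⟩,
        fun h => h.elim (fun h' => by constructor <;> linarith [h'.1, h'.2])
          fun h' => ⟨by linarith [h'.2], by linarith [h'.1]⟩⟩
  rw [e, measure_union ?_ measurableSet_Ico, Real.volume_Ioc, Real.volume_Ico,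
    ← ENNReal.ofReal_add (by linarith) (by linarith)]
  · congr 1
    ring
  · exact Set.disjoint_left.2 fun t h h' => by linarith [h.1, h'.2]

theorem zero_mem_sg {n : ℕ} (u : Fin n → ℝ) : (0 : Fin n → ℝ) ∈ sg u :=
  ⟨0, by norm_num, zero_smul ℝ u⟩

theorem convex_sg {n : ℕ} (u : Fin n → ℝ) : Convex ℝ (sg u) :=
  (convex_Icc (-1 : ℝ) 1).is_linear_image ⟨fun a b => add_smul a b u, fun a b => mul_smul a b u⟩

theorem neg_sg {n : ℕ} (u : Fin n → ℝ) : -sg u = sg u := by
  have h : ∀ x ∈ sg u, -x ∈ sg u := by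
    rintro _ ⟨t, ⟨h1, h2⟩, rfl⟩
    exact ⟨-t, ⟨by linarith, by linarith⟩, neg_smul t u⟩
  ext x
  exact ⟨fun hx => neg_neg x ▸ h _ hx, fun hx => h x hx⟩

end

end Vale.Agent.P237.AllN
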