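import Vale.Agent.P237.AllN.Bridge

/-!
The planar case: the projection body contains the rotated difference body, so `4 |S| ≤ |Π S|`.
-/

open MeasureTheory Set Pointwise

namespace Vale.Agent.P237.AllN

noncomputable section

/-- The cross product in the plane. -/
def cr (w x : Fin 2 → ℝ) : ℝ := w 0 * x 1 - w 1 * x 0

/-- In the plane a segment adds at least its length times the breadth across it. -/
theorem planar_add_sg {S : Set (Fin 2 → ℝ)} (hS : IsCompact S) (hc : Convex ℝ S) (w : Fin 2 → ℝ)
    {a b : Fin 2 → ℝ} (ha : a ∈ S) (hb : b ∈ S) :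
    volume S + ENNReal.ofReal (2 * (cr w a - cr w b)) ≤ volume (S + sg w) := by
  have hsub : S ⊆ S + sg w := fun x hx =>
    ⟨x, hx, 0, ⟨0, by norm_num, zero_smul ℝ w⟩, add_zero x⟩
  rcases le_or_gt (cr w a - cr w b) 0 with h | h
  · rw [ENNReal.ofReal_of_nonpos (by linarith), add_zero]
    exact measure_mono hsub
  set Q := w 0 ^ 2 + w 1 ^ 2 with hQd
  have hQ : Q ≠ 0 := by
    intro hQ
    have h0 : w 0 = 0 := by nlinarith [sq_nonneg (w 1), sq_nonneg (w 0)]
    have h1 : w 1 = 0 := by nlinarith [sq_nonneg (w 1), sq_nonneg (w 0)]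
    simp [cr, h0, h1] at h
  set N : (Fin 2 → ℝ) →ₗ[ℝ] (Fin 2 → ℝ) :=
    Matrix.toLin' !![w 0 / Q, w 1 / Q; -w 1, w 0] with hN
  have hdet : LinearMap.det N = 1 := by
    rw [hN, LinearMap.det_toLin', Matrix.det_fin_two_of]
    field_simp
    rw [hQd]
    ring
  have hNw : N w = Pi.single 0 1 := by
    ext i
    fin_cases i <;> simp [hN, dotProduct, Fin.sum_univ_two]
    · field_simp
      rw [hQd]
    · ring
  have hN1 : ∀ x, Fin.tail (N x) = fun _ => cr w x := by
    intro x
    ext i
    fin_cases i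
    simp [hN, Fin.tail, cr, dotProduct, Fin.sum_univ_two]
    ring
  have hvol : ∀ T : Set (Fin 2 → ℝ), volume (N '' T) = volume T := by
    intro T
    rw [Measure.addHaar_image_linearMap, hdet]
    simp
  have himg : N '' (S + sg w) = N '' S + sg (Pi.single 0 1) := by
    rw [Set.image_add N, sg, sg, Set.image_image]
    congr 1
    exact image_congr fun t _ => by rw [map_smul, hNw]
  rw [← hvol (S + sg w), himg,
    volume_add_sg (hS.image N.continuous_of_finiteDimensional) (hc.linear_image N), hvol,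
    show ENNReal.ofReal (2 * (cr w a - cr w b)) = 2 * ENNReal.ofReal (cr w a - cr w b) by
      rw [ENNReal.ofReal_mul (by norm_num)]; simp]
  gcongr
  have hsub1 : (Icc (fun _ : Fin 1 => cr w b) fun _ => cr w a) ⊆ Fin.tail '' (N '' S) := by
    intro y hy
    have h0 : cr w b ≤ y 0 ∧ y 0 ≤ cr w a := ⟨hy.1 0, hy.2 0⟩
    set r := (y 0 - cr w b) / (cr w a - cr w b) with hr
    refine ⟨_, ⟨r • a + (1 - r) • b, hc ha hb (div_nonneg (by linarith) h.le)
      (sub_nonneg.2 ((div_le_one h).2 (by linarith))) (by ring), rfl⟩, ?_⟩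
    rw [hN1]
    funext i
    rw [Subsingleton.elim i 0]
    have : r * (cr w a - cr w b) = y 0 - cr w b := div_mul_cancel₀ _ h.ne'
    simp only [cr, Pi.add_apply, Pi.smul_apply, smul_eq_mul] at this ⊢
    linear_combination this
  refine le_trans (le_of_eq ?_) (measure_mono hsub1)
  simp [Real.volume_Icc_pi]

/-- The base of the induction: `4 |S| ≤ |Π S|` in the plane. -/
theorem four_mul_le_piSet {S : Set (Fin 2 → ℝ)} (hS : IsCompact S) (hc : Convex ℝ S) :
    4 * volume.real S ^ (2 - 1) ≤ volume.real (piSet S) := by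
  rw [pow_one]
  rcases S.eq_empty_or_nonempty with rfl | hne
  · simp [measureReal_nonneg]
  set J : (Fin 2 → ℝ) →ₗ[ℝ] (Fin 2 → ℝ) := Matrix.toLin' !![0, 1; -1, 0] with hJ
  have hJdot : ∀ w d : Fin 2 → ℝ, w ⬝ᵥ J d = cr w d := by
    intro w d
    simp [hJ, cr, dotProduct, Fin.sum_univ_two]
    ring
  have hsub : J '' (S + -S) ⊆ piSet S := by
    rintro _ ⟨_, ⟨a, ha, mb, hmb, rfl⟩, rfl⟩ w
    have hb : -mb ∈ S := hmb
    have hfin : volume (S + sg w) ≠ ⊤ := (hS.add (isCompact_sg w)).measure_lt_top.ne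
    rw [hJdot]
    rcases le_or_gt (cr w a - cr w (-mb)) 0 with h | h
    · have e : cr w (a + mb) = cr w a - cr w (-mb) := by simp [cr]; ring
      linarith [pA_nonneg hS w]
    · have hv := ENNReal.toReal_mono hfin (planar_add_sg hS hc w ha hb)
      rw [ENNReal.toReal_add hS.measure_lt_top.ne ENNReal.ofReal_ne_top,
        ENNReal.toReal_ofReal (by linarith)] at hv
      have e : cr w (a + mb) = cr w a - cr w (-mb) := by simp [cr]; ring
      simp only [pA, Measure.real]
      linarith
  have h1 := measureReal_mono (μ := volume) hsub (isCompact_sub (pA S)).measure_lt_top.ne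
  have h2 : volume.real (J '' (S + -S)) = volume.real (S + -S) := by
    rw [Measure.real, Measure.addHaar_image_linearMap]
    simp [hJ, LinearMap.det_toLin', Matrix.det_fin_two_of, Measure.real]
  have h3 := root_add_le two_ne_zero hS hS.neg hc hc.neg hne hne.neg
  rw [show root (-S) = root S by simp [root, real_neg]] at h3
  have h6 : 0 ≤ root S := Real.rpow_nonneg measureReal_nonneg _
  have h4 : (root S + root S) ^ 2 ≤ root (S + -S) ^ 2 := pow_le_pow_left₀ (by linarith) h3 2
  have h5 : ∀ A : Set (Fin 2 → ℝ), root A ^ 2 = volume.real A := fun A =>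
    Real.rpow_inv_natCast_pow measureReal_nonneg two_ne_zero
  rw [show (root S + root S) ^ 2 = 4 * root S ^ 2 by ring, h5 S, h5 (S + -S)] at h4
  linarith [h1, h2]

end

end Vale.Agent.P237.AllN
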