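import Vale.Agent.P237.AllN.Fibres
import Vale.Agent.P254.BM

/-!
Slices and Brunn-Minkowski in any dimension.  For a symmetric body `K` and `u ⊥ e0` the number
`pA K u` dominates the integral of the same numbers of the slices, so the shadow of the projection
body of `K` on `e0⊥` contains the Minkowski integral of the projection bodies of the slices.
-/

open MeasureTheory Set Pointwise Filter Topology

namespace Vale.Agent.P237.AllN

noncomputable section

/-- The points satisfying all linear inequalities bounded by `f`. -/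
def sub {n : ℕ} (f : (Fin n → ℝ) → ℝ) : Set (Fin n → ℝ) := {x | ∀ u, u ⬝ᵥ x ≤ f u}

theorem isCompact_sub {n : ℕ} (f : (Fin n → ℝ) → ℝ) : IsCompact (sub f) := by
  have hc : IsClosed (sub f) := by
    simp only [sub, Set.ofPred_forall]
    exact isClosed_iInter fun u => isClosed_le (by unfold dotProduct; fun_prop) continuous_const
  refine (isCompact_Icc (a := fun i => -f (-Pi.single i 1))
    (b := fun i => f (Pi.single i 1))).of_isClosed_subset hc fun x hx => ⟨fun i => ?_, fun i => ?_⟩
  · have := hx (-Pi.single i 1)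
    simp at this
    linarith
  · simpa using hx (Pi.single i 1)

theorem convex_sub {n : ℕ} (f : (Fin n → ℝ) → ℝ) : Convex ℝ (sub f) := by
  intro x hx y hy p q hp hq hpq u
  rw [dotProduct_add, dotProduct_smul, dotProduct_smul, smul_eq_mul, smul_eq_mul]
  calc p * (u ⬝ᵥ x) + q * (u ⬝ᵥ y) ≤ p * f u + q * f u :=
        add_le_add (mul_le_mul_of_nonneg_left (hx u) hp) (mul_le_mul_of_nonneg_left (hy u) hq)
    _ = f u := by rw [← add_mul, hpq, one_mul]

theorem pA_nonneg {n : ℕ} {K : Set (Fin n → ℝ)} (hK : IsCompact K) (u : Fin n → ℝ) :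
    0 ≤ pA K u := by
  have : volume.real K ≤ volume.real (K + sg u) :=
    measureReal_mono (fun x hx => ⟨x, hx, 0, zero_mem_sg u, add_zero x⟩)
      (hK.add (isCompact_sg u)).measure_lt_top.ne
  unfold pA
  linarith

theorem sg_zero {n : ℕ} : sg (0 : Fin n → ℝ) = {0} := by
  have h : (Icc (-1 : ℝ) 1).Nonempty := nonempty_Icc.2 (by norm_num)
  simp [sg, h.image_const]

theorem real_smul {n : ℕ} (S : Set (Fin n → ℝ)) {r : ℝ} (hr : 0 ≤ r) :
    volume.real (r • S) = r ^ n * volume.real S := by
  rw [Measure.real, Measure.addHaar_smul_of_nonneg volume hr, ENNReal.toReal_mul,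
    ENNReal.toReal_ofReal (by positivity)]
  simp [Measure.real]

theorem real_neg {n : ℕ} (S : Set (Fin n → ℝ)) : volume.real (-S) = volume.real S := by
  simp [Measure.real]

theorem exists_equiv {n : ℕ} {u : Fin (n + 1) → ℝ} (hu : u ≠ 0) :
    ∃ T : (Fin (n + 1) → ℝ) ≃ₗ[ℝ] (Fin (n + 1) → ℝ), T (Pi.single 0 1) = u := by
  obtain ⟨j, hj⟩ := Function.ne_iff.1 hu
  simp only [Pi.zero_apply] at hj
  set v : Fin (n + 1) → ℝ := u - Pi.single j 1 with hv
  have hvj : v j = u j - 1 := by simp [hv]
  let F : (Fin (n + 1) → ℝ) →ₗ[ℝ] (Fin (n + 1) → ℝ) :=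
    LinearMap.id + (LinearMap.proj j).smulRight v
  let G : (Fin (n + 1) → ℝ) →ₗ[ℝ] (Fin (n + 1) → ℝ) :=
    LinearMap.id - (((u j)⁻¹ • LinearMap.proj j).smulRight v)
  have h1 : F.comp G = LinearMap.id := by
    refine LinearMap.ext fun x => funext fun i => ?_
    simp [F, G, hvj]
    field_simp
    ring
  have h2 : G.comp F = LinearMap.id := by
    refine LinearMap.ext fun x => funext fun i => ?_
    simp [F, G, hvj]
    field_simp
    ring
  let E : (Fin (n + 1) → ℝ) ≃ₗ[ℝ] (Fin (n + 1) → ℝ) := LinearEquiv.ofLinearMap F G h1 h2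
  refine ⟨(LinearEquiv.funCongrLeft ℝ ℝ (Equiv.swap 0 j)).trans E, ?_⟩
  have e : (Pi.single 0 1 : Fin (n + 1) → ℝ) ∘ Equiv.swap 0 j = Pi.single j 1 := by
    funext i
    simp only [Function.comp, Pi.single_apply]
    rcases eq_or_ne i j with rfl | hij
    · simp
    · rcases eq_or_ne i 0 with rfl | hi
      · simp [hij, hij.symm]
      · simp [Equiv.swap_apply_of_ne_of_ne hi hij, hi, hij]
  rw [LinearEquiv.trans_apply]
  change F ((Pi.single 0 1 : Fin (n + 1) → ℝ) ∘ Equiv.swap 0 j) = u
  rw [e]
  funext i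
  simp [F, hv]

/-- The volume of `K` plus a segment is linear in the length of the segment. -/
theorem real_add_smul_sg {n : ℕ} {K : Set (Fin (n + 1) → ℝ)} (hK : IsCompact K)
    (hc : Convex ℝ K) (u : Fin (n + 1) → ℝ) {r : ℝ} (hr : 0 < r) :
    volume.real (K + sg (r • u)) = volume.real K + 2 * r * pA K u := by
  rcases eq_or_ne u 0 with rfl | hu
  · simp [pA, sg_zero]
  obtain ⟨T, hT⟩ := exists_equiv hu
  set K' := T.symm '' K with hK'
  have hcont : Continuous T.symm := T.symm.toLinearMap.continuous_of_finiteDimensional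
  have hK'c : IsCompact K' := hK.image hcont
  have hK'v : Convex ℝ K' := hc.linear_image T.symm.toLinearMap
  set d := |LinearMap.det (T : (Fin (n + 1) → ℝ) →ₗ[ℝ] (Fin (n + 1) → ℝ))| with hd
  have himage : ∀ A : Set (Fin (n + 1) → ℝ), volume.real (T '' A) = d * volume.real A := by
    intro A
    have := Measure.addHaar_image_linearMap (volume : Measure (Fin (n + 1) → ℝ))
      (T : (Fin (n + 1) → ℝ) →ₗ[ℝ] (Fin (n + 1) → ℝ)) A
    rw [Measure.real, show (T '' A) = (T : (Fin (n + 1) → ℝ) →ₗ[ℝ] (Fin (n + 1) → ℝ)) '' A from rfl,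
      this, ENNReal.toReal_mul, ENNReal.toReal_ofReal (abs_nonneg _)]
    rfl
  have hTK : T '' K' = K := by simp [hK', ← image_comp]
  have key : ∀ s : ℝ, 0 < s →
      volume.real (K + sg (s • u)) = volume.real K + s * (2 * d * volume.real (Fin.tail '' K')) := by
    intro s hs
    have e : K + sg (s • u) = T '' (s • (s⁻¹ • K' + sg (Pi.single 0 1))) := by
      rw [smul_add, smul_inv_smul₀ hs.ne', image_add, hTK]
      congr 1
      rw [← image_smul, ← image_comp, sg, sg, ← image_comp]
      refine image_congr fun t _ => ?_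
      simp [hT, smul_comm t s]
    have h1 := volume_add_sg (K := s⁻¹ • K') (hK'c.smul _) (hK'v.smul _)
    have htl : Fin.tail '' (s⁻¹ • K') = s⁻¹ • (Fin.tail '' K') :=
      image_smul_comm Fin.tail s⁻¹ K' fun _ => rfl
    have hfin : volume (Fin.tail '' K') ≠ ⊤ :=
      (hK'c.image (continuous_pi fun i : Fin n => continuous_apply (Fin.succ i))).measure_lt_top.ne
    have h2 : volume.real (s⁻¹ • K' + sg (Pi.single 0 1)) =
        volume.real (s⁻¹ • K') + 2 * volume.real (s⁻¹ • (Fin.tail '' K')) := by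
      rw [Measure.real, h1, ENNReal.toReal_add (hK'c.smul _).measure_lt_top.ne, ENNReal.toReal_mul,
        htl]
      · simp [Measure.real]
      · refine ENNReal.mul_ne_top (by norm_num) ?_
        rw [htl, Measure.addHaar_smul_of_nonneg volume (by positivity)]
        exact ENNReal.mul_ne_top ENNReal.ofReal_ne_top hfin
    rw [e, himage, real_smul _ hs.le, h2, real_smul _ (by positivity), real_smul _ (by positivity)]
    have hvK : volume.real K = d * volume.real K' := by rw [← himage, hTK]
    rw [hvK, inv_pow, inv_pow, pow_succ]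
    field_simp
  have h1 := key 1 one_pos
  rw [one_smul] at h1
  rw [key r hr]
  unfold pA
  rw [h1]
  ring

/-- The `m`-th root of the volume. -/
def root {m : ℕ} (S : Set (Fin m → ℝ)) : ℝ := volume.real S ^ ((m : ℝ)⁻¹)

/-- Brunn-Minkowski for nonempty compact convex sets. -/
theorem root_add_le {m : ℕ} (hm : m ≠ 0) {A B : Set (Fin m → ℝ)} (hA : IsCompact A)
    (hB : IsCompact B) (hAc : Convex ℝ A) (hBc : Convex ℝ B) (hAn : A.Nonempty)
    (hBn : B.Nonempty) : root A + root B ≤ root (A + B) := by
  obtain ⟨a, ha⟩ := hAn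
  obtain ⟨b, hb⟩ := hBn
  have hG : IsCompact (A + B) := hA.add hB
  have hmono : ∀ {S : Set (Fin m → ℝ)} {x : Fin m → ℝ}, x +ᵥ S ⊆ A + B → root S ≤ root (A + B) := by
    intro S x h
    have := measureReal_mono (μ := volume) h hG.measure_lt_top.ne
    rw [show volume.real (x +ᵥ S) = volume.real S by simp [Measure.real]] at this
    exact Real.rpow_le_rpow measureReal_nonneg this (by positivity)
  rcases (measureReal_nonneg (μ := volume) (s := A)).eq_or_lt with h0 | hA0
  · rw [show root A = 0 by rw [root, ← h0, Real.zero_rpow (by simp [hm])], zero_add]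
    refine hmono (x := a) ?_
    rintro _ ⟨x, hx, rfl⟩
    exact ⟨a, ha, x, hx, rfl⟩
  rcases (measureReal_nonneg (μ := volume) (s := B)).eq_or_lt with h0 | hB0
  · rw [show root B = 0 by rw [root, ← h0, Real.zero_rpow (by simp [hm])], add_zero]
    refine hmono (x := b) ?_
    rintro _ ⟨x, hx, rfl⟩
    exact ⟨x, hx, b, hb, add_comm x b⟩
  have key := Vale.P254.brunn_minkowski (A := (-a) +ᵥ A) (B := (-b) +ᵥ B)
    (G := (-a + -b) +ᵥ (A + B)) (hA.vadd _) (hB.vadd _) (hAc.vadd _) (hBc.vadd _)
    ⟨a, ha, neg_add_cancel a⟩ ⟨b, hb, neg_add_cancel b⟩ (hG.vadd _)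
    (c := root A) (d := root B) (Real.rpow_pos_of_pos hA0 _) (Real.rpow_pos_of_pos hB0 _)
    zero_le_one zero_le_one (by norm_num)
    (by rw [root, Real.rpow_inv_natCast_pow measureReal_nonneg hm]; simp [Measure.real])
    (by rw [root, Real.rpow_inv_natCast_pow measureReal_nonneg hm]; simp [Measure.real])
    (by
      rintro _ ⟨x, hx, rfl⟩ _ ⟨y, hy, rfl⟩
      refine ⟨x + y, add_mem_add hx hy, ?_⟩
      simp [add_add_add_comm])
  simp only [one_mul] at key
  have h2 : volume.real ((-a + -b) +ᵥ (A + B)) = volume.real (A + B) := by simp [Measure.real]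
  rw [h2] at key
  have hn : 0 ≤ root A + root B :=
    add_nonneg (Real.rpow_nonneg measureReal_nonneg _) (Real.rpow_nonneg measureReal_nonneg _)
  rw [← Real.pow_rpow_inv_natCast hn hm]
  exact Real.rpow_le_rpow (pow_nonneg hn _) key (by positivity)

theorem root_smul {m : ℕ} (hm : m ≠ 0) (S : Set (Fin m → ℝ)) {r : ℝ} (hr : 0 ≤ r) :
    root (r • S) = r * root S := by
  rw [root, real_smul S hr, Real.mul_rpow (pow_nonneg hr _) measureReal_nonneg,
    Real.pow_rpow_inv_natCast hr hm]
  rfl

/-- A convex combination of a body and its negative has no smaller volume. -/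
theorem real_le_of_mix {m : ℕ} (hm : m ≠ 0) {A B : Set (Fin m → ℝ)} (hA : IsCompact A)
    (hAc : Convex ℝ A) (hAn : A.Nonempty) (hB : IsCompact B) {θ : ℝ} (hθ : θ ∈ Icc (0 : ℝ) 1)
    (h : θ • A + (1 - θ) • -A ⊆ B) : volume.real A ≤ volume.real B := by
  have h1 := root_add_le hm (hA.smul θ) (hA.neg.smul (1 - θ)) (hAc.smul θ) (hAc.neg.smul (1 - θ))
    hAn.smul_set hAn.neg.smul_set
  rw [root_smul hm _ hθ.1, root_smul hm _ (by linarith [hθ.2])] at h1
  have h2 : root (θ • A + (1 - θ) • -A) ≤ root B :=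
    Real.rpow_le_rpow measureReal_nonneg (measureReal_mono h hB.measure_lt_top.ne) (by positivity)
  have h3 : root A ≤ root B := by
    rw [show root (-A) = root A by simp [root, real_neg]] at h1
    linarith
  exact (Real.rpow_le_rpow_iff measureReal_nonneg measureReal_nonneg
    (by have := Nat.pos_of_ne_zero hm; positivity)).1 h3

/-- The projections grow in the same way. -/
theorem pA_le_of_mix {n : ℕ} {A B : Set (Fin (n + 1) → ℝ)} (hA : IsCompact A) (hAc : Convex ℝ A)
    (hAn : A.Nonempty) (hB : IsCompact B) (hBc : Convex ℝ B) {θ : ℝ} (hθ : θ ∈ Icc (0 : ℝ) 1)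
    (h : θ • A + (1 - θ) • -A ⊆ B) (u : Fin (n + 1) → ℝ) : pA A u ≤ pA B u := by
  have key : ∀ r : ℝ, 0 < r →
      volume.real A + 2 * r * pA A u ≤ volume.real B + 2 * r * pA B u := by
    intro r hr
    rw [← real_add_smul_sg hA hAc u hr, ← real_add_smul_sg hB hBc u hr]
    refine real_le_of_mix (Nat.succ_ne_zero n) (hA.add (isCompact_sg _))
      (hAc.add (convex_sg _)) (hAn.add ⟨0, zero_mem_sg _⟩) (hB.add (isCompact_sg _)) hθ ?_
    have e : θ • (A + sg (r • u)) + (1 - θ) • -(A + sg (r • u)) =
        (θ • A + (1 - θ) • -A) + sg (r • u) := by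
      rw [neg_add, neg_sg, smul_add, smul_add, add_add_add_comm,
        ← (convex_sg (r • u)).add_smul hθ.1 (by linarith [hθ.2]), add_sub_cancel, one_smul]
    rw [e]
    exact Set.add_subset_add_right h
  by_contra hlt
  push Not at hlt
  have hpos : 0 < pA A u - pA B u := by linarith
  have h1 := key ((|volume.real B - volume.real A| + 1) / (pA A u - pA B u)) (by positivity)
  have h2 : (|volume.real B - volume.real A| + 1) / (pA A u - pA B u) * (pA A u - pA B u) =
      |volume.real B - volume.real A| + 1 := div_mul_cancel₀ _ hpos.ne'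
  linarith [le_abs_self (volume.real B - volume.real A), abs_nonneg (volume.real B - volume.real A)]

/-- The shadow on `e0⊥` of the projection body of a symmetric body, bounded below through the
slices and the inequality one dimension down. -/
theorem slice_piSet {m : ℕ} (hm : 2 ≤ m) {c : ℝ} (hc0 : 0 ≤ c)
    (hP : ∀ S : Set (Fin m → ℝ), IsCompact S → Convex ℝ S →
      c * volume.real S ^ (m - 1) ≤ volume.real (piSet S))
    {K : Set (Fin (m + 1) → ℝ)} (hK : IsCompact K) (hKc : Convex ℝ K) (hKs : -K = K) :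
    c * (∫ t, slA K t ^ (((m : ℝ) - 1) / m)) ^ m ≤
      volume.real {y : Fin m → ℝ | ∀ w, w ⬝ᵥ y ≤ pA K (Fin.cons 0 w)} := by
  obtain ⟨k, rfl⟩ : ∃ k, m = k + 2 := ⟨m - 2, by omega⟩
  set e : ℝ := (((k + 2 : ℕ) : ℝ) - 1) / (k + 2 : ℕ) with he
  have he0 : 0 < e := by
    rw [he]
    refine div_pos ?_ (by positivity)
    push_cast
    linarith [(k.cast_nonneg : (0 : ℝ) ≤ k)]
  set L : Set (Fin (k + 2) → ℝ) := sub fun w => pA K (Fin.cons 0 w) with hL
  change _ ≤ volume.real L
  have hLc : IsCompact L := isCompact_sub _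
  rcases K.eq_empty_or_nonempty with rfl | hKn
  · simp [slA, Real.zero_rpow he0.ne']
  have hm0 : k + 2 ≠ 0 := by omega
  set G := ∫ t, slA K t ^ e with hG
  have hG0 : 0 ≤ G := integral_nonneg fun t => Real.rpow_nonneg measureReal_nonneg _
  set a := c ^ (((k + 2 : ℕ) : ℝ)⁻¹) with ha
  have ha0 : 0 ≤ a := Real.rpow_nonneg hc0 _
  suffices hmain : a * G ≤ root L by
    have h1 := pow_le_pow_left₀ (by positivity) hmain (k + 2)
    rwa [mul_pow, ha, root, Real.rpow_inv_natCast_pow hc0 hm0,
      Real.rpow_inv_natCast_pow measureReal_nonneg hm0] at h1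
  -- the slices
  have hcons : ∀ t, Continuous fun y : Fin (k + 2) → ℝ => (Fin.cons t y : Fin (k + 3) → ℝ) :=
    fun t => continuous_pi fun i => Fin.cases continuous_const (fun j => continuous_apply j) i
  have hS : ∀ t, IsCompact (sl K t) := fun t =>
    (hK.image (continuous_pi fun i => continuous_apply (Fin.succ i))).of_isClosed_subset
      (hK.isClosed.preimage (hcons t)) fun y hy => ⟨_, hy, Fin.tail_cons _ _⟩
  have hSc : ∀ t, Convex ℝ (sl K t) := by
    intro t x hx y hy p r hp hr hpr
    have h := hKc hx hy hp hr hpr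
    have e : p • (Fin.cons t x : Fin (k + 3) → ℝ) + r • Fin.cons t y
        = Fin.cons t (p • x + r • y) := by
      funext i
      refine Fin.cases ?_ (fun j => ?_) i
      · simp [← add_mul, hpr]
      · simp
    simpa [sl, e] using h
  have hneg : ∀ x ∈ K, -x ∈ K := fun x hx => by rw [← hKs]; exact neg_mem_neg.2 hx
  obtain ⟨zc, hzc, hmax⟩ := hK.exists_isMaxOn hKn
    (continuous_apply (0 : Fin (k + 3))).continuousOn
  set R := zc 0 with hR
  have hR0 : 0 ≤ R := by
    have : -zc 0 ≤ zc 0 := hmax (hneg zc hzc)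
    linarith
  have hout : ∀ t, R < |t| → sl K t = ∅ := by
    intro t ht
    refine eq_empty_of_forall_notMem fun y hy => ?_
    have h1 : (Fin.cons t y : Fin (k + 3) → ℝ) 0 ≤ R := hmax hy
    have h2 : (-(Fin.cons t y : Fin (k + 3) → ℝ)) 0 ≤ R := hmax (hneg _ hy)
    simp only [Pi.neg_apply, Fin.cons_zero] at h1 h2
    have : |t| ≤ R := abs_le.2 ⟨by linarith, h1⟩
    linarith
  have hcomb : ∀ s t : ℝ, |s| ≤ |t| → ∃ θ ∈ Icc (0 : ℝ) 1,
      θ • sl K t + (1 - θ) • -sl K t ⊆ sl K s := by
    intro s t hst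
    refine ⟨(1 + s / t) / 2, ?_, ?_⟩
    · have : |s / t| ≤ 1 := by rw [abs_div]; exact div_le_one_of_le₀ hst (abs_nonneg t)
      constructor <;> linarith [(abs_le.1 this).1, (abs_le.1 this).2]
    · rintro _ ⟨_, ⟨p, hp, rfl⟩, _, ⟨mq, hmq, rfl⟩, rfl⟩
      obtain ⟨q, hq, rfl⟩ : ∃ q, q ∈ sl K t ∧ mq = -q := ⟨-mq, hmq, (neg_neg mq).symm⟩
      have h1 : |s / t| ≤ 1 := by rw [abs_div]; exact div_le_one_of_le₀ hst (abs_nonneg t)
      have hm := hKc hp (hneg _ hq) (a := (1 + s / t) / 2) (b := 1 - (1 + s / t) / 2)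
        (by linarith [(abs_le.1 h1).1]) (by linarith [(abs_le.1 h1).2]) (by ring)
      have e : ((1 + s / t) / 2) • (Fin.cons t p : Fin (k + 3) → ℝ) +
          (1 - (1 + s / t) / 2) • -Fin.cons t q =
          Fin.cons s (((1 + s / t) / 2) • p + (1 - (1 + s / t) / 2) • -q) := by
        funext i
        refine Fin.cases ?_ (fun j => ?_) i
        · have : s / t * t = s := by
            rcases eq_or_ne t 0 with rfl | ht
            · simp only [abs_zero, abs_nonpos_iff] at hst
              simp [hst]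
            · exact div_mul_cancel₀ s ht
          simp only [Pi.add_apply, Pi.smul_apply, Pi.neg_apply, Fin.cons_zero, smul_eq_mul]
          linear_combination this
        · simp
      rw [e] at hm
      exact hm
  have hne : ∀ t, |t| ≤ R → (sl K t).Nonempty := by
    intro t ht
    obtain ⟨θ, -, h⟩ := hcomb t R (by rwa [abs_of_nonneg hR0])
    have hz : Fin.tail zc ∈ sl K R := by simp [sl, hR, hzc]
    exact ⟨_, h (add_mem_add (smul_mem_smul_set hz) (smul_mem_smul_set (neg_mem_neg.2 hz)))⟩
  have hvmono : ∀ s t : ℝ, |s| ≤ |t| → slA K t ≤ slA K s := by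
    intro s t hst
    rcases (sl K t).eq_empty_or_nonempty with h0 | hn
    · change volume.real (sl K t) ≤ _
      rw [h0]
      simp [slA]
    · obtain ⟨θ, hθ, h⟩ := hcomb s t hst
      exact real_le_of_mix hm0 (hS t) (hSc t) hn (hS s) hθ h
  set F : ℝ → ℝ := fun t => slA K t ^ e with hF
  have hF0 : ∀ t, 0 ≤ F t := fun t => Real.rpow_nonneg measureReal_nonneg _
  have hPi : ∀ t, a * F t ≤ root (piSet (sl K t)) := by
    intro t
    have h := Real.rpow_le_rpow (z := (((k + 2 : ℕ) : ℝ)⁻¹)) (by positivity)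
      (hP _ (hS t) (hSc t)) (by positivity)
    rw [Real.mul_rpow hc0 (by positivity), ← Real.rpow_natCast, ← Real.rpow_mul measureReal_nonneg]
      at h
    refine le_of_eq_of_le ?_ h
    simp only [ha, hF, he, slA, sl]
    congr 2
    rw [Nat.cast_sub (by omega), div_eq_mul_inv, Nat.cast_one]
  suffices hmain : ∀ n : ℕ, 1 ≤ n → a * G ≤ root L + 2 * (R / n) * (a * F 0) by
    have hlim : Tendsto (fun n : ℕ => root L + 2 * (R / n) * (a * F 0)) atTop (𝓝 (root L)) := by
      simpa using ((tendsto_const_div_atTop_nhds_zero_nat R).const_mul 2 |>.mul_const (a * F 0)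
        |>.const_add (root L))
    exact ge_of_tendsto hlim (eventually_atTop.2 ⟨1, hmain⟩)
  intro n hn
  set Δ := R / n with hΔ
  have hn0 : (0 : ℝ) < n := by exact_mod_cast hn
  have hΔ0 : 0 ≤ Δ := by positivity
  have hnΔ : (n : ℝ) * Δ = R := by rw [hΔ]; field_simp
  set T : ℕ → ℝ := fun i => (i : ℝ) * Δ with hT
  have hT0 : ∀ i, 0 ≤ T i := fun i => by positivity
  have hTs : ∀ i, T (i + 1) - T i = Δ := fun i => by simp only [hT]; push_cast; ring
  -- upper bound for `G`
  have hGle : G ≤ ∑ i ∈ Finset.range n, F (T i) * (2 * Δ) := by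
    have hmeas : ∀ i, MeasurableSet {t : ℝ | |t| ∈ Icc (T i) (T (i + 1))} := fun i =>
      measurableSet_Icc.preimage continuous_abs.measurable
    have hfin : ∀ i, volume {t : ℝ | |t| ∈ Icc (T i) (T (i + 1))} ≤ ENNReal.ofReal (2 * Δ) :=
      fun i => (volume_abs_le (by linarith [hTs i])).trans_eq (by rw [hTs i])
    set g : ℝ → ℝ := fun t => ∑ i ∈ Finset.range n,
      {t : ℝ | |t| ∈ Icc (T i) (T (i + 1))}.indicator (fun _ => F (T i)) t with hg
    have hint : ∀ i, Integrable
        ({t : ℝ | |t| ∈ Icc (T i) (T (i + 1))}.indicator fun _ => F (T i)) := fun i =>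
      (integrable_indicator_iff (hmeas i)).2
        (integrableOn_const (ne_top_of_le_ne_top ENNReal.ofReal_ne_top (hfin i)))
    have hgi : Integrable g := integrable_finsetSum _ fun i _ => hint i
    have hle : ∀ t, F t ≤ g t := by
      intro t
      have hnn : ∀ i ∈ Finset.range n,
          0 ≤ {t : ℝ | |t| ∈ Icc (T i) (T (i + 1))}.indicator (fun _ => F (T i)) t :=
        fun i _ => indicator_nonneg (fun _ _ => hF0 _) t
      rcases le_or_gt |t| R with ht | ht
      · rcases exists_cell (D := Δ) n (abs_nonneg t) (hnΔ.symm ▸ ht) with h0 | ⟨i, hi, h1, h2⟩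
        · omega
        refine le_trans ?_ (Finset.single_le_sum hnn (Finset.mem_range.2 hi))
        rw [indicator_of_mem (show t ∈ {t : ℝ | |t| ∈ Icc (T i) (T (i + 1))} from ⟨h1, h2⟩)]
        exact Real.rpow_le_rpow measureReal_nonneg
          (hvmono (T i) t (by rwa [abs_of_nonneg (hT0 i)])) he0.le
      · rw [show F t = 0 by
          simp only [hF, show slA K t = volume.real (sl K t) from rfl, hout t ht]
          simp [Real.zero_rpow he0.ne']]
        exact Finset.sum_nonneg hnn
    calc G ≤ ∫ t, g t := integral_mono_of_nonneg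
          (Eventually.of_forall hF0) hgi (Eventually.of_forall hle)
      _ = ∑ i ∈ Finset.range n, volume.real {t : ℝ | |t| ∈ Icc (T i) (T (i + 1))} * F (T i) := by
          rw [integral_finsetSum _ fun i _ => hint i]
          exact Finset.sum_congr rfl fun i _ => by
            rw [integral_indicator_const _ (hmeas i), smul_eq_mul]
      _ ≤ _ := Finset.sum_le_sum fun i _ => by
          rw [mul_comm]
          refine mul_le_mul_of_nonneg_left ?_ (hF0 _)
          exact ENNReal.toReal_le_of_le_ofReal (by positivity) (hfin i)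
  -- the Minkowski sum inside `L`
  set S : ℕ → Set (Fin (k + 2) → ℝ) := fun i => sl K (T (i + 1)) with hSd
  set P : ℕ → Set (Fin (k + 2) → ℝ) := fun i => (2 * Δ) • piSet (S i) with hPd
  set f : ℕ → (Fin (k + 2) → ℝ) → ℝ :=
    fun j w => ∑ i ∈ Finset.range j, 2 * Δ * pA (S i) w with hf
  have hsum : ∀ j, ∃ D : Set (Fin (k + 2) → ℝ), IsCompact D ∧ Convex ℝ D ∧ D.Nonempty ∧
      D ⊆ sub (f j) ∧ ∑ i ∈ Finset.range j, root (P i) ≤ root D := by
    intro j
    induction j with
    | zero =>
      refine ⟨{0}, isCompact_singleton, convex_singleton 0, singleton_nonempty _, ?_, ?_⟩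
      · simp [sub, hf]
      · simpa [root] using Real.rpow_nonneg measureReal_nonneg _
    | succ j ih =>
      obtain ⟨D, hDk, hDc, hDn, hDs, hDr⟩ := ih
      have hPn : (P j).Nonempty := Set.Nonempty.smul_set
        ⟨0, fun u => by rw [dotProduct_zero]; exact pA_nonneg (hS _) u⟩
      have hPk : IsCompact (P j) := (isCompact_sub (pA (S j))).smul _
      have hPc : Convex ℝ (P j) := (convex_sub (pA (S j))).smul _
      refine ⟨D + P j, hDk.add hPk, hDc.add hPc, hDn.add hPn, ?_, ?_⟩
      · rintro _ ⟨x, hx, _, ⟨y, hy, rfl⟩, rfl⟩ w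
        rw [dotProduct_add, dotProduct_smul, smul_eq_mul]
        simp only [hf, Finset.sum_range_succ]
        exact add_le_add (hDs hx w) (mul_le_mul_of_nonneg_left (hy w) (by positivity))
      · rw [Finset.sum_range_succ]
        linarith [root_add_le hm0 hDk hPk hDc hPc hDn hPn]
  obtain ⟨D, -, -, -, hDs, hDr⟩ := hsum n
  have hslices : ∀ w, f n w ≤ pA K (Fin.cons 0 w) := by
    intro w
    set u : Fin (k + 3) → ℝ := Fin.cons 0 w with hu
    set B : ℕ → Set ℝ := fun i => {t : ℝ | |t| ∈ Ioc (T i) (T (i + 1))} with hB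
    have hBm : ∀ i, MeasurableSet (B i) := fun i =>
      measurableSet_Ioc.preimage continuous_abs.measurable
    have hpt : ∀ t, volume (sl K t) +
        ∑ i ∈ Finset.range n, (B i).indicator (fun _ => ENNReal.ofReal (2 * pA (S i) w)) t ≤
        volume (sl (K + sg u) t) := by
      intro t
      have hsub : sl K t + sg w ⊆ sl (K + sg u) t := by
        rintro _ ⟨y, hy, _, ⟨r, hr, rfl⟩, rfl⟩
        refine ⟨_, hy, _, ⟨r, hr, rfl⟩, ?_⟩
        funext i
        refine Fin.cases ?_ (fun j => ?_) i <;> simp [hu]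
      refine le_trans ?_ (measure_mono hsub)
      have hfin2 : volume (sl K t + sg w) ≠ ⊤ :=
        ((hS t).add (isCompact_sg w)).measure_lt_top.ne
      have hval : volume (sl K t + sg w) = volume (sl K t) + ENNReal.ofReal (2 * pA (sl K t) w) := by
        rw [← ENNReal.ofReal_toReal (hS t).measure_lt_top.ne, ← ENNReal.ofReal_toReal hfin2,
          ← ENNReal.ofReal_add ENNReal.toReal_nonneg (by linarith [pA_nonneg (hS t) w])]
        congr 1
        simp only [pA, Measure.real]
        ring
      rw [hval]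
      gcongr
      by_cases hex : ∃ i ∈ Finset.range n, t ∈ B i
      · obtain ⟨i, hi, hti⟩ := hex
        rw [Finset.sum_eq_single_of_mem i hi, indicator_of_mem hti]
        · gcongr
          have habs : |T (i + 1)| ≤ R := by
            rw [abs_of_nonneg (hT0 _), ← hnΔ]
            exact mul_le_mul_of_nonneg_right (by exact_mod_cast Finset.mem_range.1 hi) hΔ0
          obtain ⟨θ, hθ, h⟩ := hcomb t (T (i + 1)) (by rw [abs_of_nonneg (hT0 _)]; exact hti.2)
          exact pA_le_of_mix (hS _) (hSc _) (hne _ habs) (hS t) (hSc t) hθ h w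
        · intro j _ hji
          refine indicator_of_notMem (fun htj => hji ?_) _
          by_contra hne'
          rcases Nat.lt_or_gt_of_ne hne' with hlt | hlt
          · have : T (j + 1) ≤ T i := mul_le_mul_of_nonneg_right (by exact_mod_cast hlt) hΔ0
            linarith [hti.1, htj.2]
          · have : T (i + 1) ≤ T j := mul_le_mul_of_nonneg_right (by exact_mod_cast hlt) hΔ0
            linarith [htj.1, hti.2]
      · push Not at hex
        rw [Finset.sum_eq_zero fun i hi => indicator_of_notMem (hex i hi) _]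
        exact zero_le
    have hseg : IsCompact (K + sg u) := hK.add (isCompact_sg u)
    have hgm : Measurable fun t => ∑ i ∈ Finset.range n,
        (B i).indicator (fun _ => ENNReal.ofReal (2 * pA (S i) w)) t :=
      Finset.measurable_fun_sum _ fun i _ => measurable_const.indicator (hBm i)
    have hp : ∀ i, 0 ≤ pA (S i) w := fun i => pA_nonneg (hS _) w
    have hnn : ∀ i ∈ Finset.range n, 0 ≤ 2 * pA (S i) w * (2 * Δ) := fun i _ => by
      have := hp i
      positivity
    have hvol : volume K + ENNReal.ofReal (∑ i ∈ Finset.range n, 2 * pA (S i) w * (2 * Δ)) ≤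
        volume (K + sg u) := by
      have e1 : ENNReal.ofReal (∑ i ∈ Finset.range n, 2 * pA (S i) w * (2 * Δ)) =
          ∫⁻ t, ∑ i ∈ Finset.range n,
            (B i).indicator (fun _ => ENNReal.ofReal (2 * pA (S i) w)) t := by
        rw [lintegral_finsetSum _ fun i _ => measurable_const.indicator (hBm i),
          ENNReal.ofReal_sum_of_nonneg hnn]
        refine Finset.sum_congr rfl fun i _ => ?_
        rw [lintegral_indicator_const (hBm i),
          volume_abs_eq (hT0 i) (by linarith [hTs i]), hTs i,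
          ENNReal.ofReal_mul (by linarith [hp i])]
      rw [(volume_eq_lintegral hK.measurableSet).1, e1, ← lintegral_add_right _ hgm,
        (volume_eq_lintegral hseg.measurableSet).1]
      exact lintegral_mono hpt
    have hreal := ENNReal.toReal_mono hseg.measure_lt_top.ne hvol
    rw [ENNReal.toReal_add hK.measure_lt_top.ne ENNReal.ofReal_ne_top,
      ENNReal.toReal_ofReal (Finset.sum_nonneg hnn)] at hreal
    simp only [hf, pA, Measure.real] at hreal ⊢
    have e2 : ∑ i ∈ Finset.range n,
          2 * Δ * (((volume (S i + sg w)).toReal - (volume (S i)).toReal) / 2) =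
        (∑ i ∈ Finset.range n,
          2 * (((volume (S i + sg w)).toReal - (volume (S i)).toReal) / 2) * (2 * Δ)) / 2 := by
      rw [Finset.sum_div]
      exact Finset.sum_congr rfl fun i _ => by ring
    rw [e2]
    linarith
  have hroot : root D ≤ root L := Real.rpow_le_rpow measureReal_nonneg
    (measureReal_mono (fun y hy w => (hDs hy w).trans (hslices w)) hLc.measure_lt_top.ne)
    (by positivity)
  have hlow : 2 * Δ * ∑ i ∈ Finset.range n, a * F (T (i + 1)) ≤ root L := by
    refine le_trans ?_ (hDr.trans hroot)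
    rw [Finset.mul_sum]
    refine Finset.sum_le_sum fun i _ => ?_
    rw [hPd]
    simp only
    rw [root_smul hm0 _ (by positivity)]
    exact mul_le_mul_of_nonneg_left (hPi _) (by positivity)
  have hshift : ∑ i ∈ Finset.range n, F (T i) ≤ F 0 + ∑ i ∈ Finset.range n, F (T (i + 1)) := by
    have h1 := Finset.sum_range_succ (fun i => F (T i)) n
    rw [Finset.sum_range_succ'] at h1
    have h2 : T 0 = 0 := by simp [hT]
    simp only [h2] at h1
    linarith [hF0 (T n)]
  rw [← Finset.sum_mul] at hGle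
  rw [← Finset.mul_sum] at hlow
  have h5 := mul_le_mul_of_nonneg_left hGle ha0
  have h6 := mul_le_mul_of_nonneg_left hshift (mul_nonneg ha0 (show 0 ≤ 2 * Δ by positivity))
  linarith

end

end Vale.Agent.P237.AllN
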